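import Mathlib

namespace Vale.Agent.P012

/-- `r` is a sum of at most `k` unit fractions, repetitions allowed. -/
def Rep (k : ℕ) (r : ℚ) : Prop :=
  ∃ M : Multiset ℕ, M.card ≤ k ∧ (∀ n ∈ M, 0 < n) ∧ (M.map fun n : ℕ => (1 / n : ℚ)).sum = r

lemma Rep.zero (k : ℕ) : Rep k 0 := ⟨0, by simp, by simp, by simp⟩

lemma Rep.mono {k l : ℕ} {r : ℚ} (h : Rep k r) (hkl : k ≤ l) : Rep l r := by
  obtain ⟨M, h1, h2, h3⟩ := h
  exact ⟨M, h1.trans hkl, h2, h3⟩

lemma Rep.add {k l : ℕ} {r s : ℚ} (h : Rep k r) (h' : Rep l s) : Rep (k + l) (r + s) := by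
  obtain ⟨M, h1, h2, h3⟩ := h
  obtain ⟨N, g1, g2, g3⟩ := h'
  refine ⟨M + N, by simp; omega, fun n hn => ?_, by simp [← h3, ← g3]⟩
  rcases Multiset.mem_add.1 hn with h | h
  exacts [h2 n h, g2 n h]

lemma Rep.one {n : ℕ} (hn : 0 < n) : Rep 1 (1 / n) := ⟨{n}, by simp, by simpa, by simp⟩

lemma finite_reps (k : ℕ) : ∀ r : ℚ, {M : Multiset ℕ | M.card ≤ k ∧ (∀ n ∈ M, 0 < n) ∧
    (M.map fun n : ℕ => (1 / n : ℚ)).sum = r}.Finite := by
  induction k with
  | zero =>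
    intro r
    refine (Set.finite_singleton 0).subset fun M hM => ?_
    simpa using hM.1
  | succ k ih =>
    intro r
    refine ((Set.finite_singleton 0).union ((Set.finite_Iic ⌈(k + 1 : ℚ) / r⌉₊).biUnion
      fun n _ => (ih (r - 1 / n)).image fun M => n ::ₘ M)).subset ?_
    rintro M ⟨h1, h2, h3⟩
    by_cases hM : M = 0
    · exact Or.inl hM
    right
    obtain ⟨n, hn, hmin⟩ := M.toFinset.exists_min_image id (by simpa using hM)
    simp only [Multiset.mem_toFinset, id] at hn hmin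
    have hn0 : (0 : ℚ) < n := by exact_mod_cast h2 n hn
    obtain ⟨M', rfl⟩ := Multiset.exists_cons_of_mem hn
    have hpos : 0 ≤ (M'.map fun n : ℕ => (1 / n : ℚ)).sum :=
      Multiset.sum_nonneg fun x hx => by
        obtain ⟨y, -, rfl⟩ := Multiset.mem_map.1 hx; positivity
    have hr : 0 < r := by
      rw [← h3, Multiset.map_cons, Multiset.sum_cons]; positivity
    have hle : r ≤ (k + 1 : ℚ) / n := by
      rw [← h3]
      refine (Multiset.sum_le_card_nsmul _ (1 / n : ℚ) fun x hx => ?_).trans ?_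
      · obtain ⟨y, hy, rfl⟩ := Multiset.mem_map.1 hx
        exact one_div_le_one_div_of_le hn0 (by exact_mod_cast hmin y hy)
      · rw [Multiset.card_map, nsmul_eq_mul, mul_one_div]
        exact div_le_div_of_nonneg_right (by exact_mod_cast h1) hn0.le
    refine Set.mem_biUnion (x := n) ?_ ⟨M', ⟨by simpa using h1, fun x hx =>
      h2 x (Multiset.mem_cons_of_mem hx), by rw [← h3]; simp⟩, rfl⟩
    have : (n : ℚ) ≤ (k + 1 : ℚ) / r := by
      rw [le_div_iff₀ hr]; rw [le_div_iff₀ hn0] at hle; linarith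
    exact_mod_cast this.trans (Nat.le_ceil _)

lemma Rep.distinct {k : ℕ} {r : ℚ} (h : Rep k r) (hr : r < 1) :
    ∃ s : Finset ℕ, s.card ≤ k ∧ (∀ n ∈ s, 2 ≤ n) ∧ ∑ n ∈ s, (1 / n : ℚ) = r := by
  obtain ⟨M, ⟨h1, h2, h3⟩, hmax⟩ := Set.exists_max_image _
    (fun M : Multiset ℕ => (M.map fun n : ℕ => (1 / n : ℚ) ^ 2).sum) (finite_reps k r) h
  have h4 : ∀ n ∈ M, 2 ≤ n := by
    intro n hn
    by_contra hc
    have : n = 1 := by have := h2 n hn; omega
    subst this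
    have := Multiset.single_le_sum (s := M.map fun n : ℕ => (1 / n : ℚ)) (fun x hx => by
      obtain ⟨y, -, rfl⟩ := Multiset.mem_map.1 hx; positivity) _ (Multiset.mem_map_of_mem _ hn)
    rw [h3] at this
    norm_num at this
    linarith
  have hnd : M.Nodup := by
    rw [Multiset.nodup_iff_ne_cons_cons]
    rintro n M' rfl
    have hn2 := h4 n (by simp)
    have hM' : ∀ x ∈ M', 0 < x := fun x hx => h2 x (by simp [hx])
    simp only [Multiset.card_cons, Multiset.map_cons, Multiset.sum_cons] at h1 h3 hmax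
    rcases Nat.even_or_odd' n with ⟨m, rfl | rfl⟩
    · have hm : 0 < m := by omega
      have hm' : (0 : ℚ) < m := by exact_mod_cast hm
      have := hmax (m ::ₘ M') ⟨by simp; omega, by simpa [hm] using hM', by
        rw [← h3]; simp; field_simp; ring⟩
      simp only [Multiset.map_cons, Multiset.sum_cons] at this
      push_cast at this
      have e : (1 / (2 * m : ℚ)) = (1 / m) / 2 := by field_simp
      rw [e] at this
      have : (0 : ℚ) < 1 / m := by positivity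
      nlinarith
    · have hm : 0 < m := by omega
      have hm' : (0 : ℚ) < m := by exact_mod_cast hm
      have := hmax ((m + 1) ::ₘ ((2 * m + 1) * (m + 1)) ::ₘ M') ⟨by simpa using h1,
        by simpa using hM', by rw [← h3]; simp; field_simp; ring⟩
      simp only [Multiset.map_cons, Multiset.sum_cons] at this
      push_cast at this
      have e1 : (1 / (m + 1 : ℚ)) = (2 * m + 1) * (1 / ((2 * m + 1) * (m + 1))) := by field_simp
      have e2 : (1 / (2 * m + 1 : ℚ)) = (m + 1) * (1 / ((2 * m + 1) * (m + 1))) := by field_simp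
      rw [e1, e2] at this
      have h5 : (0 : ℚ) < (1 / ((2 * m + 1) * (m + 1))) ^ 2 := by positivity
      have h6 : (0 : ℚ) < m ^ 2 := by positivity
      nlinarith [mul_pos h5 h6]
  exact ⟨⟨M, hnd⟩, h1, h4, h3⟩

lemma step {a B u : ℕ} (ha : 0 < a) (h : a * u < B) :
    ∃ n a' : ℕ, u < n ∧ n ≤ B ∧ B ≤ a * n ∧ a' < a ∧ a' * (n * (n - 1)) < B * n ∧
      (a : ℚ) / B = 1 / n + a' / (B * n : ℕ) := by
  set n := (B + a - 1) / a with hn
  have h1 := Nat.div_add_mod (B + a - 1) a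
  have h2 := Nat.mod_lt (B + a - 1) ha
  rw [← hn] at h1
  have hB : 0 < B := by omega
  have h3 : B ≤ a * n := by omega
  have h4 : a * n < B + a := by omega
  have h5 : u < n := lt_of_mul_lt_mul_left (h.trans_le h3) (Nat.zero_le a)
  obtain ⟨n', hn'⟩ : ∃ n', n = n' + 1 := ⟨n - 1, by omega⟩
  have h6 : a * n' < B := by rw [hn', mul_add] at h4; omega
  refine ⟨n, a * n - B, h5, ?_, h3, by omega, ?_, ?_⟩
  · have : n' < B := lt_of_le_of_lt (Nat.le_mul_of_pos_left _ ha) h6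
    omega
  · have h7 : a * n - B ≤ a := by omega
    calc (a * n - B) * (n * (n - 1)) ≤ a * (n * n') := by
          rw [hn', Nat.add_sub_cancel]; exact Nat.mul_le_mul_right _ (hn' ▸ h7)
      _ = (a * n') * n := by ring
      _ < B * n := Nat.mul_lt_mul_of_pos_right h6 (by omega)
  · have : (0 : ℚ) < n := by exact_mod_cast (by omega : 0 < n)
    have : (0 : ℚ) < B := by exact_mod_cast hB
    push_cast [Nat.cast_sub h3]
    field_simp; ring

lemma greedy (T : ℕ) (J : ℕ) : ∀ a B u : ℕ, a * u < B → B < T → T ≤ u ^ 2 ^ J →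
    ∃ (a' B' : ℕ) (r : ℚ), a' ≤ a ∧ Rep J r ∧ (a : ℚ) / B = r + a' / B' ∧
      (a' = 0 ∨ (T ≤ B' ∧ B' ≤ T ^ 2)) := by
  induction J with
  | zero =>
    intro a B u h1 h2 h3
    have : a = 0 := by
      by_contra h
      have : u ≤ a * u := Nat.le_mul_of_pos_left _ (by omega)
      simp at h3; omega
    subst this
    exact ⟨0, 1, 0, le_rfl, Rep.zero _, by simp, Or.inl rfl⟩
  | succ J ih =>
    intro a B u h1 h2 h3
    rcases Nat.eq_zero_or_pos a with rfl | ha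
    · exact ⟨0, 1, 0, le_rfl, Rep.zero _, by simp, Or.inl rfl⟩
    obtain ⟨n, a', s1, s2, -, s4, s5, s6⟩ := step ha h1
    by_cases hT : T ≤ B * n
    · refine ⟨a', B * n, 1 / n, s4.le, (Rep.one (by omega)).mono (by omega), s6, Or.inr ⟨hT, ?_⟩⟩
      rw [sq]; exact Nat.mul_le_mul h2.le (s2.trans h2.le)
    · obtain ⟨a'', B'', r, t1, t2, t3, t4⟩ := ih a' (B * n) (u ^ 2)
        (lt_of_le_of_lt (Nat.mul_le_mul_left _ (by
          rw [sq]; exact Nat.mul_le_mul s1.le (by omega))) s5) (by omega)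
        (by rw [← pow_mul, ← pow_succ']; exact h3)
      refine ⟨a'', B'', 1 / n + r, by omega, ?_, by rw [s6, t3, add_assoc], t4⟩
      rw [add_comm J]; exact (Rep.one (by omega)).add t2

/-- After `J + 2` greedy steps the remainder has a small numerator and a denominator
which is a product of two large factors. -/
lemma prepare {a b Θ J : ℕ} (ha : a < b) (h1 : b ^ 2 < 2 ^ 2 ^ J) (h2 : b * Θ ≤ 2 ^ 2 ^ J) :
    ∃ (a' g n : ℕ) (r : ℚ), a' ≤ b ∧ Rep (J + 2) r ∧ (a : ℚ) / b = r + a' / (g * n : ℕ) ∧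
      (a' = 0 ∨ (Θ ≤ g ∧ Θ ≤ n ∧ g ≤ (2 ^ 2 ^ J) ^ 2 ∧ n ≤ (2 ^ 2 ^ J) ^ 2)) := by
  rcases Nat.eq_zero_or_pos a with rfl | ha0
  · exact ⟨0, 1, 1, 0, by omega, Rep.zero _, by simp, Or.inl rfl⟩
  obtain ⟨n, a1, s1, s2, -, s4, s5, s6⟩ := step (u := 1) (B := b) ha0 (by omega)
  obtain ⟨a2, B, r, t1, t2, t3, t4⟩ := greedy (2 ^ 2 ^ J) J a1 (b * n) 2
    (lt_of_le_of_lt (Nat.mul_le_mul_left _ (by
      calc 2 = 2 * 1 := rfl
        _ ≤ n * (n - 1) := Nat.mul_le_mul (by omega) (by omega))) s5)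
    (lt_of_le_of_lt (by rw [sq]; exact Nat.mul_le_mul_left _ s2) h1) le_rfl
  have hr : Rep (J + 1) (1 / n + r) := by rw [add_comm J]; exact (Rep.one (by omega)).add t2
  rcases Nat.eq_zero_or_pos a2 with rfl | ha2
  · exact ⟨0, 1, 1, 1 / n + r, by omega, hr.mono (by omega), by rw [s6, t3]; simp, Or.inl rfl⟩
  obtain ⟨t5, t6⟩ := t4.resolve_left (by omega)
  have hB : 0 < B := lt_of_lt_of_le (by positivity) t5
  obtain ⟨n', a3, u1, u2, u3, u4, -, u6⟩ := step (u := 0) (B := B) ha2 (by simpa using hB)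
  refine ⟨a3, B, n', 1 / n + r + 1 / n', by omega, hr.add (Rep.one u1), by
    rw [s6, t3, u6]; ring, Or.inr ⟨?_, ?_, t6, u2.trans t6⟩⟩
  · exact (Nat.le_mul_of_pos_left _ (by omega)).trans (h2.trans t5)
  · have : b * Θ ≤ b * n' := (h2.trans t5).trans (u3.trans (Nat.mul_le_mul_right _ (by omega)))
    exact Nat.le_of_mul_le_mul_left this (by omega)

/-- `S` is a sum of at most `n` divisors of `D`. -/
def SumDiv (D n S : ℕ) : Prop :=
  ∃ M : Multiset ℕ, M.card ≤ n ∧ (∀ d ∈ M, d ∣ D) ∧ M.sum = S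

lemma SumDiv.zero (D n : ℕ) : SumDiv D n 0 := ⟨0, by simp, by simp, by simp⟩

lemma SumDiv.one {D d : ℕ} (h : d ∣ D) : SumDiv D 1 d := ⟨{d}, by simp, by simpa, by simp⟩

lemma SumDiv.add {D n m S T : ℕ} (h : SumDiv D n S) (h' : SumDiv D m T) :
    SumDiv D (n + m) (S + T) := by
  obtain ⟨M, h1, h2, h3⟩ := h
  obtain ⟨N, g1, g2, g3⟩ := h'
  refine ⟨M + N, by simp; omega, fun n hn => ?_, by simp [← h3, ← g3]⟩
  rcases Multiset.mem_add.1 hn with h | h
  exacts [h2 n h, g2 n h]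

lemma SumDiv.mul {D D' n S y : ℕ} (h : SumDiv D n S) (hy : y ∣ D') :
    SumDiv (D * D') n (S * y) := by
  obtain ⟨M, h1, h2, h3⟩ := h
  refine ⟨M.map (· * y), by simpa using h1, fun d hd => ?_, by
    rw [Multiset.sum_map_mul_right, ← h3]; simp⟩
  obtain ⟨e, he, rfl⟩ := Multiset.mem_map.1 hd
  exact mul_dvd_mul (h2 e he) hy

lemma SumDiv.dvd {D D' n S : ℕ} (h : SumDiv D n S) (hD : D ∣ D') : SumDiv D' n S := by
  obtain ⟨M, h1, h2, h3⟩ := h
  exact ⟨M, h1, fun d hd => (h2 d hd).trans hD, h3⟩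

lemma SumDiv.le {D n S : ℕ} (h : SumDiv D n S) (hD : 0 < D) : S ≤ n * D := by
  obtain ⟨M, h1, h2, rfl⟩ := h
  exact (Multiset.sum_le_card_nsmul M D fun d hd => Nat.le_of_dvd hD (h2 d hd)).trans
    (Nat.mul_le_mul_right _ h1)

lemma SumDiv.sum {ι : Type} (s : Finset ι) {D n : ℕ} {f : ι → ℕ} (h : ∀ i ∈ s, SumDiv D n (f i)) :
    SumDiv D (s.card * n) (∑ i ∈ s, f i) := by
  classical
  induction s using Finset.induction_on with
  | empty => simpa using SumDiv.zero _ _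
  | insert i s hi ih =>
    rw [Finset.sum_insert hi, Finset.card_insert_of_notMem hi, add_mul, one_mul, add_comm _ n]
    exact (h i (by simp)).add (ih fun j hj => h j (by simp [hj]))

lemma SumDiv.rep {D n S A c : ℕ} (h : SumDiv D n S) (hD : 0 < D) (hc : 0 < c) (hS : 0 < S)
    (hA : A ∣ S) : Rep n (A / (D * c : ℕ)) := by
  obtain ⟨M, h1, h2, h3⟩ := h
  obtain ⟨q, hq⟩ := hA
  have hq0 : 0 < q := by rcases Nat.eq_zero_or_pos q with rfl | h; simp at hq; omega; exact h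
  refine ⟨M.map fun d => D / d * c * q, by simpa using h1, fun e he => ?_, ?_⟩
  · obtain ⟨d, hd, rfl⟩ := Multiset.mem_map.1 he
    have := Nat.div_pos (Nat.le_of_dvd hD (h2 d hd)) (Nat.pos_of_dvd_of_pos (h2 d hd) hD)
    positivity
  · rw [Multiset.map_map, Multiset.map_congr rfl (g := fun d : ℕ => (d : ℚ) * (1 / (D * c * q)))]
    · rw [Multiset.sum_map_mul_right, ← Nat.cast_multiset_sum, h3, hq]
      push_cast; field_simp
    intro d hd
    obtain ⟨e, rfl⟩ := h2 d hd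
    have hd0 : 0 < d := Nat.pos_of_mul_pos_right hD
    have he0 : 0 < e := Nat.pos_of_mul_pos_left hD
    simp only [Function.comp, Nat.mul_div_cancel_left _ hd0]
    push_cast; field_simp

/-- Positional combination of two sets. -/
def comb (Z Z' : Finset ℕ) (g : ℕ) : Finset ℕ := (Z ×ˢ Z').image fun p => p.1 + p.2 * g

lemma card_comb {Z Z' : Finset ℕ} {g : ℕ} (hg : 0 < g)
    (h : ∀ x ∈ Z, ∀ y ∈ Z, x % g = y % g → x = y) : (comb Z Z' g).card = Z.card * Z'.card := by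
  rw [comb, Finset.card_image_of_injOn, Finset.card_product]
  rintro ⟨x, z⟩ hx ⟨y, w⟩ hy hxy
  simp only [Finset.coe_product, Set.mem_prod, Finset.mem_coe] at hx hy hxy
  have h1 : x = y := h x hx.1 y hy.1 (by
    have := congrArg (· % g) hxy
    simpa using this)
  subst h1
  have : z = w := Nat.eq_of_mul_eq_mul_right hg (by omega)
  rw [this]

lemma sumDiv_comb {Z Z' : Finset ℕ} {g D D' n n' : ℕ} (hD : D ∣ D' * g)
    (h : ∀ x ∈ Z, SumDiv D n x) (h' : ∀ x ∈ Z', SumDiv D' n' x) :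
    ∀ x ∈ comb Z Z' g, SumDiv (D' * g) (n + n') x := by
  intro x hx
  obtain ⟨⟨y, z⟩, hyz, rfl⟩ := Finset.mem_image.1 hx
  rw [Finset.mem_product] at hyz
  exact ((h y hyz.1).dvd hD).add ((h' z hyz.2).mul dvd_rfl)

lemma pos_comb {Z Z' : Finset ℕ} {g : ℕ} (h : ∀ x ∈ Z, 0 < x) : ∀ x ∈ comb Z Z' g, 0 < x := by
  intro x hx
  obtain ⟨⟨y, z⟩, hyz, rfl⟩ := Finset.mem_image.1 hx
  exact Nat.add_pos_left (h y (Finset.mem_product.1 hyz).1) _

lemma exists_tower {Z : Finset ℕ} {Q l : ℕ} (hl : 0 < l) (hQ : 0 < Q) (hZ : ∀ x ∈ Z, x ∣ Q)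
    (h : ∀ x ∈ Z, ∀ y ∈ Z, x % l = y % l → x = y) (t : ℕ) :
    ∃ X : Finset ℕ, X.card = Z.card ^ t ∧ (t ≠ 0 → ∀ x ∈ X, 0 < x) ∧
      ∀ x ∈ X, SumDiv (Q * l ^ t) t x := by
  induction t with
  | zero => exact ⟨{0}, by simp, by simp, by simpa using SumDiv.zero _ _⟩
  | succ t ih =>
    obtain ⟨X, h1, -, h2⟩ := ih
    refine ⟨comb Z X l, by rw [card_comb hl h, h1, pow_succ'],
      fun _ => pos_comb fun x hx => Nat.pos_of_dvd_of_pos (hZ x hx) hQ, ?_⟩
    rw [pow_succ, ← mul_assoc, add_comm t]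
    exact sumDiv_comb (D := Q) (Dvd.dvd.mul_right (Dvd.intro _ rfl) _)
      (fun x hx => SumDiv.one (hZ x hx)) h2

end Vale.Agent.P012
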