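import Vale.Agent.P012.Fourier

open Finset

namespace Vale.Agent.P012

lemma card_dvd_le (W : ℕ) (S : Finset ℕ) :
    (((Ioc 0 W).filter fun A => ∃ d ∈ S, d ∣ A).card : ℝ) ≤ W * ∑ d ∈ S, (1 / d : ℝ) := by
  have : ((Ioc 0 W).filter fun A => ∃ d ∈ S, d ∣ A)
      = S.biUnion fun d => (Ioc 0 W).filter fun A => d ∣ A := by
    ext A; simp only [mem_filter, mem_biUnion]; tauto
  rw [this, mul_sum]
  refine le_trans (Nat.cast_le.2 card_biUnion_le) ?_
  push_cast
  refine sum_le_sum fun d _ => ?_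
  rw [Nat.Ioc_filter_dvd_card_eq_div, mul_one_div]
  exact Nat.cast_div_le

/-- Large squares. -/
def sqs (W : ℕ) : Finset ℕ := (Ioc 20 W).image fun n : ℕ => n ^ 2

lemma sq_sum (W : ℕ) : ∑ d ∈ sqs W, (1 / (d : ℕ) : ℝ) ≤ 1 / 20 := by
  rw [sqs, sum_image fun x _ y _ h => Nat.pow_left_injective two_ne_zero h]
  rcases le_total 20 W with h | h
  · have := sum_Ioc_inv_sq_le_sub (α := ℝ) (k := 20) (by norm_num) h
    simp only [one_div]
    push_cast at this ⊢
    have : (0 : ℝ) ≤ (W : ℝ)⁻¹ := by positivity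
    linarith
  · rw [Ioc_eq_empty (by omega)]; simp

lemma prime_sum {e : ℕ} (he : 0 < e) (r : ℕ) :
    ∑ q ∈ (Ioc (2 ^ e) (2 ^ (e + r))).filter Nat.Prime, (1 / q : ℝ) ≤ 4 * r / e := by
  induction r with
  | zero => simp
  | succ r ih =>
    have h1 : 2 ^ e ≤ 2 ^ (e + r) := Nat.pow_le_pow_right (by norm_num) (by omega)
    have h2 : 2 ^ (e + r) ≤ 2 ^ (e + (r + 1)) := Nat.pow_le_pow_right (by norm_num) (by omega)
    rw [← Ioc_union_Ioc_eq_Ioc h1 h2, filter_union, sum_union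
      (disjoint_filter_filter (Ioc_disjoint_Ioc_of_le le_rfl))]
    set P := (Ioc (2 ^ (e + r)) (2 ^ (e + (r + 1)))).filter Nat.Prime with hP
    have h3 : (2 ^ e) ^ P.card ≤ 4 ^ 2 ^ (e + (r + 1)) := by
      refine le_trans ?_ (primorial_le_four_pow _)
      refine (pow_card_le_prod P id _ fun q hq => ?_).trans ?_
      · have := (mem_Ioc.1 (mem_filter.1 hq).1).1; simp only [id]; omega
      · refine prod_le_prod_of_subset_of_one_le' (fun q hq => ?_) fun q hq _ =>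
          (mem_filter.1 hq).2.pos
        have := (mem_Ioc.1 (mem_filter.1 hq).1).2
        exact mem_filter.2 ⟨mem_range.2 (by omega), (mem_filter.1 hq).2⟩
    rw [← pow_mul, show 4 = 2 ^ 2 by norm_num, ← pow_mul,
      Nat.pow_le_pow_iff_right (by norm_num)] at h3
    have h4 : ∑ q ∈ P, (1 / q : ℝ) ≤ P.card * (1 / 2 ^ (e + r)) := by
      rw [← nsmul_eq_mul]
      refine sum_le_card_nsmul _ _ _ fun q hq => one_div_le_one_div_of_le (by positivity) ?_
      exact_mod_cast (mem_Ioc.1 (mem_filter.1 hq).1).1.le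
    have h5 : (P.card : ℝ) * (1 / 2 ^ (e + r)) ≤ 4 / e := by
      have he' : (0 : ℝ) < e := by exact_mod_cast he
      rw [mul_one_div, div_le_div_iff₀ (by positivity) he']
      have : ((e * P.card : ℕ) : ℝ) ≤ ((2 * 2 ^ (e + (r + 1)) : ℕ) : ℝ) := by exact_mod_cast h3
      push_cast at this
      rw [← add_assoc, pow_succ] at this
      linarith
    push_cast
    rw [mul_add, add_div]
    linarith

lemma tau_count (W : ℕ) {t : ℝ} :
    (((Ioc 0 W).filter fun A => t < A.divisors.card).card : ℝ) * t ≤ W * (1 + Real.log W) := by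
  have h1 : ∑ A ∈ Ioc 0 W, (A.divisors.card : ℝ) ≤ W * (1 + Real.log W) := by
    have e : ∀ A ∈ Ioc 0 W, (A.divisors.card : ℝ) = ∑ d ∈ Icc 1 W, if d ∣ A then 1 else 0 := by
      intro A hA
      rw [mem_Ioc] at hA
      rw [sum_boole]
      congr 2
      ext d
      simp only [Nat.mem_divisors, mem_filter, mem_Icc]
      constructor
      · rintro ⟨h, -⟩
        exact ⟨⟨Nat.pos_of_dvd_of_pos h hA.1, (Nat.le_of_dvd hA.1 h).trans hA.2⟩, h⟩
      · rintro ⟨-, h⟩; exact ⟨h, hA.1.ne'⟩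
    rw [sum_congr rfl e, sum_comm]
    refine le_trans ?_ (mul_le_mul_of_nonneg_left (harmonic_le_one_add_log W) (by positivity))
    rw [harmonic_eq_sum_Icc]
    push_cast
    rw [mul_sum]
    refine sum_le_sum fun d _ => ?_
    rw [sum_boole, Nat.Ioc_filter_dvd_card_eq_div]
    exact Nat.cast_div_le
  refine le_trans ?_ h1
  rw [← nsmul_eq_mul, ← sum_const]
  exact (sum_le_sum fun A hA => (mem_filter.1 hA).2.le).trans
    (sum_le_sum_of_subset_of_nonneg (filter_subset _ _) fun _ _ _ => by positivity)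

lemma two_pow_omega_le {n : ℕ} (hn : n ≠ 0) : 2 ^ n.primeFactors.card ≤ n.divisors.card := by
  rw [Nat.card_divisors hn]
  refine pow_card_le_prod _ _ _ fun p hp => ?_
  have := (Nat.prime_of_mem_primeFactors hp).factorization_pos_of_dvd hn
    (Nat.dvd_of_mem_primeFactors hp)
  omega

lemma omega_le {n z : ℕ} (hn : n ≠ 0) (h : n ≤ 2 ^ z) : n.primeFactors.card ≤ z :=
  (Nat.pow_le_pow_iff_right (by norm_num : 1 < 2)).1
    ((two_pow_omega_le hn).trans ((Nat.card_divisors_le_self n).trans h))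

lemma sqfree_sum {n z : ℕ} (hn : n ≠ 0) (h : n ≤ 2 ^ z) {L : ℝ} (hL : 0 < L) (hz : z / L ≤ 1 / 50)
    (S : Finset ℕ) (hS : ∀ d ∈ S, Squarefree d ∧ 1 < d ∧ d ∣ n) :
    ∑ d ∈ S, (1 / L) ^ d.primeFactors.card ≤ 1 / 49 := by
  have h1 : ∑ d ∈ S, (1 / L) ^ d.primeFactors.card
      ≤ ∑ R ∈ n.primeFactors.powerset.erase ∅, (1 / L) ^ R.card := by
    rw [← sum_image (g := Nat.primeFactors) (f := fun R => (1 / L) ^ R.card)]
    · refine sum_le_sum_of_subset_of_nonneg (fun R hR => ?_) fun _ _ _ => by positivity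
      obtain ⟨d, hd, rfl⟩ := mem_image.1 hR
      refine mem_erase.2 ⟨?_, mem_powerset.2 (Nat.primeFactors_mono (hS d hd).2.2 hn)⟩
      have := (hS d hd).2.1
      simp only [ne_eq, Nat.primeFactors_eq_empty]; omega
    · intro x hx y hy hxy
      rw [← Nat.prod_primeFactors_of_squarefree (hS x hx).1,
        ← Nat.prod_primeFactors_of_squarefree (hS y hy).1, hxy]
  have h2 := add_sum_erase n.primeFactors.powerset (fun R => (1 / L) ^ R.card) (empty_mem_powerset _)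
  have h3 := sum_pow_mul_eq_add_pow (1 / L) 1 n.primeFactors
  simp only [one_pow, mul_one, card_empty, pow_zero] at h2 h3
  have h4 : (1 / L + 1) ^ n.primeFactors.card ≤ Real.exp (1 / 50) := by
    calc _ ≤ (Real.exp (1 / L)) ^ n.primeFactors.card :=
          pow_le_pow_left₀ (by positivity) (Real.add_one_le_exp _) _
      _ = Real.exp (n.primeFactors.card / L) := by rw [← Real.exp_nat_mul, mul_one_div]
      _ ≤ _ := Real.exp_le_exp.2 (le_trans (div_le_div_of_nonneg_right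
          (by exact_mod_cast omega_le hn h) hL.le) hz)
  have h5 := Real.exp_bound_div_one_sub_of_interval (x := 1 / 50) (by norm_num) (by norm_num)
  norm_num at h5
  linarith

/-- Moduli for which `X` has too many congruent pairs. -/
noncomputable def badMod (W : ℕ) (X : Finset ℕ) (L : ℝ) : Finset ℕ :=
  (Icc 2 W).filter fun d => Squarefree d ∧
    L ^ d.primeFactors.card * X.card ^ 2 < d * (EE d X - X.card)

lemma badMod_sum (W : ℕ) {X : Finset ℕ} (hX0 : X.Nonempty) {z : ℕ} (hX : ∀ x ∈ X, x ≤ 2 ^ z)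
    {L : ℝ} (hL : 0 < L) (hz : z / L ≤ 1 / 50) :
    ∑ d ∈ badMod W X L, (1 / d : ℝ) ≤ 1 / 49 := by
  have hc : (0 : ℝ) < X.card ^ 2 := by have := hX0.card_pos; positivity
  have e : ∀ d, (EE d X - X.card : ℝ)
      = ∑ p ∈ X.offDiag, if p.1 % d = p.2 % d then 1 else 0 := by
    intro d
    rw [sum_boole, EE, ← diag_union_offDiag, filter_union,
      card_union_of_disjoint (disjoint_filter_filter (disjoint_diag_offDiag X)),
      filter_true_of_mem (s := X.diag) fun p hp => by rw [(mem_diag.1 hp).2], diag_card]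
    push_cast; ring
  have h1 : ∀ d ∈ badMod W X L, (1 / d : ℝ) * X.card ^ 2 ≤
      ∑ p ∈ X.offDiag, if p.1 % d = p.2 % d then (1 / L) ^ d.primeFactors.card else 0 := by
    intro d hd
    obtain ⟨h2, -, h3⟩ := mem_filter.1 hd
    have hd0 : (0 : ℝ) < d := by exact_mod_cast (by have := (mem_Icc.1 h2).1; omega : 0 < d)
    have : (∑ p ∈ X.offDiag, if p.1 % d = p.2 % d then (1 / L) ^ d.primeFactors.card else 0)
        = (EE d X - X.card : ℝ) / L ^ d.primeFactors.card := by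
      rw [e, sum_div]
      refine sum_congr rfl fun p _ => ?_
      split_ifs <;> simp
    rw [this, one_div_mul_eq_div, div_le_div_iff₀ hd0 (by positivity)]
    linarith
  have h2 := sum_le_sum h1
  rw [← sum_mul, sum_comm] at h2
  have h3 : ∀ p ∈ X.offDiag, (∑ d ∈ badMod W X L,
      if p.1 % d = p.2 % d then (1 / L) ^ d.primeFactors.card else 0) ≤ 1 / 49 := by
    intro p hp
    obtain ⟨a1, a2, a3⟩ := mem_offDiag.1 hp
    rw [← sum_filter]
    refine sqfree_sum (n := max p.1 p.2 - min p.1 p.2) (z := z) (by omega)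
      (by have := hX _ a1; have := hX _ a2; omega) hL hz _ fun d hd => ?_
    obtain ⟨b1, b2⟩ := mem_filter.1 hd
    obtain ⟨b3, b4, -⟩ := mem_filter.1 b1
    refine ⟨b4, (mem_Icc.1 b3).1, ?_⟩
    rcases le_total p.1 p.2 with h | h
    · rw [max_eq_right h, min_eq_left h]; exact (Nat.modEq_iff_dvd' h).1 b2
    · rw [max_eq_left h, min_eq_right h]; exact (Nat.modEq_iff_dvd' h).1 b2.symm
  have h4 := sum_le_card_nsmul _ _ _ h3
  have h5 : (X.offDiag.card : ℝ) ≤ X.card ^ 2 := by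
    rw [offDiag_card, sq]; exact_mod_cast Nat.sub_le _ _
  rw [nsmul_eq_mul] at h4
  exact le_of_mul_le_mul_right (by nlinarith) hc

lemma dvd_struct {A k w : ℕ} (hA : A ≠ 0) (hk : 20 ≤ k) (h1 : ∀ n, 20 < n → ¬ n ^ 2 ∣ A)
    (h2 : ∀ q, q.Prime → k < q → q ≤ w → ¬ q ∣ A) :
    A ∣ primorial k ^ 9 * ∏ q ∈ A.primeFactors.filter (w < ·), q := by
  conv_lhs => rw [← Nat.prod_factorization_pow_eq_self hA, Finsupp.prod, Nat.support_factorization,
    ← prod_filter_mul_prod_filter_not _ (· ≤ k)]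
  refine mul_dvd_mul ?_ ?_
  · rw [primorial, ← prod_pow]
    refine (prod_dvd_prod_of_dvd _ (fun p => p ^ 9) fun p hp => pow_dvd_pow _ ?_).trans
      (prod_dvd_prod_of_subset _ _ _ fun p hp => ?_)
    · have hp' := Nat.prime_of_mem_primeFactors (mem_filter.1 hp).1
      by_contra hc
      refine h1 (p ^ 5) (lt_of_lt_of_le (by norm_num) (Nat.pow_le_pow_left hp'.two_le 5)) ?_
      rw [← pow_mul]
      exact (hp'.pow_dvd_iff_le_factorization hA).2 (by omega)
    · rw [mem_filter] at hp ⊢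
      exact ⟨mem_range.2 (by omega), Nat.prime_of_mem_primeFactors hp.1⟩
  · refine (prod_dvd_prod_of_dvd _ (fun p => p) fun p hp => ?_).trans
      (prod_dvd_prod_of_subset _ _ _ fun p hp => ?_)
    · have hp' := Nat.prime_of_mem_primeFactors (mem_filter.1 hp).1
      have hk' := (mem_filter.1 hp).2
      have : A.factorization p ≤ 1 := by
        by_contra hc
        exact h1 p (by omega) ((hp'.pow_dvd_iff_le_factorization hA).2 (by omega))
      simpa using pow_dvd_pow p this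
    · rw [mem_filter] at hp ⊢
      refine ⟨hp.1, ?_⟩
      by_contra hc
      exact h2 p (Nat.prime_of_mem_primeFactors hp.1) (by omega) (by omega)
        (Nat.dvd_of_mem_primeFactors hp.1)

lemma term_bound {d j w x y ex ey LX LY : ℝ} {n κ : ℕ} (hn : 1 ≤ n) (hw : 0 < w) (hx : 0 < x)
    (hy : 0 < y) (hLX : 1 ≤ LX) (hLY : 1 ≤ LY) (hd : w ^ n ≤ d) (hdx : d ≤ x) (hwy : w ^ n ≤ y)
    (hex0 : 0 ≤ ex) (hey0 : 0 ≤ ey)
    (hex : d * (ex - x) ≤ LX ^ n * x ^ 2) (hey : d * (ey - y) ≤ LY ^ n * y ^ 2)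
    (hj : (2 * LX) ^ (κ + 1) * (2 * LY / w) ^ κ ≤ j) (hj1 : j ≤ 1) :
    (ex * (d * ey)) ^ κ * (d * ex) ≤ j * (((x * y) ^ 2) ^ κ * x ^ 2) := by
  have hd0 : 0 < d := lt_of_lt_of_le (by positivity) hd
  have h2n : (2 : ℝ) ≤ 2 ^ n := le_self_pow₀ (by norm_num) (by omega)
  have a1 : 1 ≤ LX ^ n := one_le_pow₀ hLX
  have a2 : 1 ≤ LY ^ n := one_le_pow₀ hLY
  have k1 : d * ex ≤ (2 * LX) ^ n * x ^ 2 := by
    have : d * x ≤ x ^ 2 := by nlinarith
    have : x ^ 2 ≤ LX ^ n * x ^ 2 := le_mul_of_one_le_left (by positivity) a1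
    have : 2 * (LX ^ n * x ^ 2) ≤ 2 ^ n * (LX ^ n * x ^ 2) :=
      mul_le_mul_of_nonneg_right h2n (by positivity)
    rw [mul_pow]; nlinarith
  have k2 : ey ≤ (2 * LY / w) ^ n * y ^ 2 := by
    rw [div_pow, div_mul_eq_mul_div, le_div_iff₀ (by positivity), mul_pow]
    have b1 : w ^ n * (ey - y) ≤ LY ^ n * y ^ 2 := by
      rcases le_total ey y with h | h
      · exact le_trans (mul_nonpos_of_nonneg_of_nonpos (by positivity) (by linarith))
          (by positivity)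
      · exact (mul_le_mul_of_nonneg_right hd (by linarith)).trans hey
    have : w ^ n * y ≤ y ^ 2 := by nlinarith
    have : y ^ 2 ≤ LY ^ n * y ^ 2 := le_mul_of_one_le_left (by positivity) a2
    have : 2 * (LY ^ n * y ^ 2) ≤ 2 ^ n * (LY ^ n * y ^ 2) :=
      mul_le_mul_of_nonneg_right h2n (by positivity)
    nlinarith
  have k3 : ex * (d * ey) ≤ ((2 * LX) ^ n * x ^ 2) * ((2 * LY / w) ^ n * y ^ 2) := by
    rw [← mul_assoc, mul_comm ex]
    exact mul_le_mul k1 k2 hey0 (by positivity)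
  refine (mul_le_mul (pow_le_pow_left₀ (by positivity) k3 κ) k1 (by positivity)
    (by positivity)).trans ?_
  have k4 : ((2 * LX) ^ (κ + 1) * (2 * LY / w) ^ κ) ^ n ≤ j :=
    (pow_le_pow_left₀ (by positivity) hj n).trans
      (pow_le_of_le_one (le_trans (by positivity) hj) hj1 (by omega))
  refine le_trans (le_of_eq ?_) (mul_le_mul_of_nonneg_right k4 (by positivity))
  simp only [mul_pow, ← pow_mul]
  ring

/-- Good numerators. -/
def Good (X Y : Finset ℕ) (k κ A : ℕ) : Prop :=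
  ∃ R c : ℕ, 0 < c ∧ A * c = primorial k ^ 9 * R ∧
    ∃ g : Fin (2 * κ) → ℕ × ℕ, (∀ i, (g i).1 ∈ X ∧ (g i).2 ∈ Y) ∧ ∃ x ∈ X, ∃ x' ∈ X,
      R ∣ ∑ i, (g i).1 * (g i).2 + (x + x')

lemma good_of {W A k w κ o : ℕ} {X Y : Finset ℕ} {LX LY : ℝ} (hA : A ∈ Ioc 0 W) (hk : 20 ≤ k)
    (hw : 0 < w) (hX : W ≤ X.card) (hY : w ^ o ≤ Y.card) (hLX : 1 ≤ LX) (hLY : 1 ≤ LY)
    (hθ : 2 ^ o * ((2 * LX) ^ (κ + 1) * (2 * LY / w) ^ κ) < 1)
    (h1 : ¬ ∃ d ∈ sqs W, d ∣ A)
    (h2 : ¬ ∃ d ∈ (Ioc k w).filter Nat.Prime, d ∣ A)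
    (h3 : ¬ (2 ^ o : ℝ) < A.divisors.card)
    (h4 : ¬ ∃ d ∈ badMod W X LX, d ∣ A) (h5 : ¬ ∃ d ∈ badMod W Y LY, d ∣ A) :
    Good X Y k κ A := by
  rw [mem_Ioc] at hA
  obtain ⟨c, hc⟩ := dvd_struct (w := w) hA.1.ne' hk (fun n hn h => h1 ⟨n ^ 2, mem_image.2 ⟨n,
    mem_Ioc.2 ⟨hn, (Nat.le_self_pow two_ne_zero n).trans ((Nat.le_of_dvd hA.1 h).trans hA.2)⟩,
    rfl⟩, h⟩) fun q a1 a2 a3 h => h2 ⟨q, mem_filter.2 ⟨mem_Ioc.2 ⟨a2, a3⟩, a1⟩, h⟩
  set R := ∏ q ∈ A.primeFactors.filter (w < ·), q with hR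
  have hpr : ∀ q ∈ A.primeFactors.filter (w < ·), q.Prime := fun q hq =>
    Nat.prime_of_mem_primeFactors (mem_filter.1 hq).1
  have hR0 : 0 < R := prod_pos fun q hq => (hpr q hq).pos
  have hRA : R ∣ A := (prod_dvd_prod_of_subset _ _ _ (filter_subset _ _)).trans
    (Nat.prod_primeFactors_dvd A)
  have hRs : Squarefree R := Finset.squarefree_prod_of_pairwise_isCoprime
    (fun p hp q hq hpq => Nat.coprime_iff_isRelPrime.1
      ((Nat.coprime_primes (hpr p hp) (hpr q hq)).2 hpq)) fun p hp => (hpr p hp).squarefree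
  have hRp : R.primeFactors = A.primeFactors.filter (w < ·) := Nat.primeFactors_prod hpr
  have hc0 : 0 < c := by
    rcases Nat.eq_zero_or_pos c with rfl | h
    · have := primorial_pos k
      have : 0 < primorial k ^ 9 * R := by positivity
      omega
    · exact h
  refine ⟨R, c, hc0, hc.symm, fourier hR0 X Y κ ?_⟩
  have hx0 : (0 : ℝ) < X.card := by exact_mod_cast (by omega : 0 < X.card)
  have hy0 : (0 : ℝ) < Y.card := by
    exact_mod_cast lt_of_lt_of_le (by positivity) hY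
  set θ := (2 * LX) ^ (κ + 1) * (2 * LY / w) ^ κ with hθ'
  have hθ0 : 0 ≤ θ := by positivity
  have hθ1 : θ ≤ 1 := by
    have : θ ≤ 2 ^ o * θ := le_mul_of_one_le_left hθ0 (one_le_pow₀ (by norm_num))
    linarith
  have ht : (R.divisors.card : ℝ) ≤ 2 ^ o := le_trans (by
    exact_mod_cast card_le_card (Nat.divisors_subset_of_dvd hA.1.ne' hRA)) (not_lt.1 h3)
  refine lt_of_le_of_lt (sum_le_card_nsmul _ _
    (θ * (((X.card * Y.card : ℝ) ^ 2) ^ κ * X.card ^ 2)) fun d hd => ?_) ?_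
  · obtain ⟨d1, d2⟩ := mem_erase.1 hd
    have d3 := Nat.dvd_of_mem_divisors d2
    have d0 : 0 < d := Nat.pos_of_dvd_of_pos d3 hR0
    have d4 : d ≤ W := (Nat.le_of_dvd hA.1 (d3.trans hRA)).trans hA.2
    have d5 : Squarefree d := hRs.squarefree_of_dvd d3
    have d6 : d ∈ Icc 2 W := mem_Icc.2 ⟨by omega, d4⟩
    have d7 : d.primeFactors.card ≤ o := by
      have a1 := two_pow_omega_le d0.ne'
      have a2 := card_le_card (Nat.divisors_subset_of_dvd hR0.ne' d3)
      have a3 : R.divisors.card ≤ 2 ^ o := by exact_mod_cast ht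
      exact (Nat.pow_le_pow_iff_right (by norm_num : 1 < 2)).1 (a1.trans (a2.trans a3))
    refine term_bound (n := d.primeFactors.card) (w := w) ?_ (by exact_mod_cast hw) hx0 hy0 hLX hLY
      ?_ (by exact_mod_cast d4.trans hX) ?_ (by positivity) (by positivity) ?_ ?_ le_rfl hθ1
    · exact (Nat.nonempty_primeFactors.2 (by omega)).card_pos
    · have : w ^ d.primeFactors.card ≤ ∏ p ∈ d.primeFactors, p :=
        pow_card_le_prod _ (fun p => p) _ fun p hp => by
          have := Nat.primeFactors_mono d3 hR0.ne' hp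
          rw [hRp] at this
          exact (mem_filter.1 this).2.le
      rw [Nat.prod_primeFactors_of_squarefree d5] at this
      exact_mod_cast this
    · exact_mod_cast (Nat.pow_le_pow_right hw d7).trans hY
    · by_contra h
      exact h4 ⟨d, mem_filter.2 ⟨d6, d5, not_le.1 h⟩, d3.trans hRA⟩
    · by_contra h
      exact h5 ⟨d, mem_filter.2 ⟨d6, d5, not_le.1 h⟩, d3.trans hRA⟩
  · rw [nsmul_eq_mul, ← mul_assoc]
    refine mul_lt_of_lt_one_left (by positivity) (lt_of_le_of_lt ?_ hθ)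
    refine mul_le_mul_of_nonneg_right (le_trans ?_ ht) hθ0
    exact_mod_cast card_erase_le

theorem good_exists {W k w κ o zX zY : ℕ} {X Y : Finset ℕ} {LX LY : ℝ} (hW : 10 ≤ W) (hk : 20 ≤ k)
    (hw : 0 < w) (hX : W ≤ X.card) (hY : w ^ o ≤ Y.card) (hLX : 1 ≤ LX) (hLY : 1 ≤ LY)
    (hθ : 2 ^ o * ((2 * LX) ^ (κ + 1) * (2 * LY / w) ^ κ) < 1)
    (hzX : ∀ x ∈ X, x ≤ 2 ^ zX) (hzY : ∀ x ∈ Y, x ≤ 2 ^ zY) (hzX' : zX / LX ≤ 1 / 50)
    (hzY' : zY / LY ≤ 1 / 50) (hp : ∑ q ∈ (Ioc k w).filter Nat.Prime, (1 / q : ℝ) ≤ 1 / 4)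
    (hlog : 50 * (1 + Real.log W) ≤ 2 ^ o) :
    ∃ A A', A + A' = W ∧ Good X Y k κ A ∧ Good X Y k κ A' := by
  classical
  have hW' : (10 : ℝ) ≤ W := by exact_mod_cast hW
  set Bad := (Ioc 0 W).filter fun A => ¬ Good X Y k κ A with hBad
  have hB : (Bad.card : ℝ) ≤ W * (2 / 5) := by
    have b1 := card_dvd_le W (sqs W)
    have b2 := card_dvd_le W ((Ioc k w).filter Nat.Prime)
    have b3 := tau_count W (t := 2 ^ o)
    have b4 := card_dvd_le W (badMod W X LX)
    have b5 := card_dvd_le W (badMod W Y LY)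
    have c1 := mul_le_mul_of_nonneg_left (sq_sum W) (Nat.cast_nonneg (α := ℝ) W)
    have c2 := mul_le_mul_of_nonneg_left hp (Nat.cast_nonneg (α := ℝ) W)
    have c4 := mul_le_mul_of_nonneg_left (badMod_sum W (card_pos.1 (by omega)) hzX (by linarith)
      hzX') (Nat.cast_nonneg (α := ℝ) W)
    have c5 := mul_le_mul_of_nonneg_left (badMod_sum W (card_pos.1
      (lt_of_lt_of_le (by positivity) hY)) hzY (by linarith) hzY') (Nat.cast_nonneg (α := ℝ) W)
    replace b1 := b1.trans c1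
    replace b2 := b2.trans c2
    replace b4 := b4.trans c4
    replace b5 := b5.trans c5
    clear c1 c2 c4 c5
    set s1 := (Ioc 0 W).filter fun A => ∃ d ∈ sqs W, d ∣ A with hs1
    set s2 := (Ioc 0 W).filter fun A => ∃ d ∈ (Ioc k w).filter Nat.Prime, d ∣ A with hs2
    set s3 := (Ioc 0 W).filter fun A => (2 ^ o : ℝ) < A.divisors.card with hs3
    set s4 := (Ioc 0 W).filter fun A => ∃ d ∈ badMod W X LX, d ∣ A with hs4
    set s5 := (Ioc 0 W).filter fun A => ∃ d ∈ badMod W Y LY, d ∣ A with hs5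
    have c3 : (s3.card : ℝ) ≤ W * (1 / 50) := by
      have : (0 : ℝ) < 2 ^ o := by positivity
      refine le_of_mul_le_mul_right (b3.trans ?_) this
      rw [mul_assoc]
      exact mul_le_mul_of_nonneg_left (by linarith) (by positivity)
    have hsub : Bad ⊆ s1 ∪ s2 ∪ s3 ∪ s4 ∪ s5 := by
      intro A hA
      obtain ⟨a1, a2⟩ := mem_filter.1 hA
      by_contra hc
      simp only [mem_union, not_or, hs1, hs2, hs3, hs4, hs5, mem_filter (s := Ioc 0 W), a1,
        true_and] at hc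
      exact a2 (good_of a1 hk hw hX hY hLX hLY hθ hc.1.1.1.1 hc.1.1.1.2 hc.1.1.2 hc.1.2 hc.2)
    have k1 := card_le_card hsub
    have k2 := card_union_le (s1 ∪ s2 ∪ s3 ∪ s4) s5
    have k3 := card_union_le (s1 ∪ s2 ∪ s3) s4
    have k4 := card_union_le (s1 ∪ s2) s3
    have k5 := card_union_le s1 s2
    have k6 : (Bad.card : ℝ) ≤ s1.card + s2.card + s3.card + s4.card + s5.card := by
      exact_mod_cast (by omega : Bad.card ≤ s1.card + s2.card + s3.card + s4.card + s5.card)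
    linarith
  by_contra hc
  push Not at hc
  have hsub : Ioo 0 W ⊆ Bad ∪ Bad.image (W - ·) := by
    intro A hA
    rw [mem_Ioo] at hA
    by_cases h : Good X Y k κ A
    · refine mem_union_right _ (mem_image.2 ⟨W - A, mem_filter.2 ⟨mem_Ioc.2 ⟨by omega, by omega⟩,
        hc A (W - A) (by omega) h⟩, by omega⟩)
    · exact mem_union_left _ (mem_filter.2 ⟨mem_Ioc.2 ⟨hA.1, hA.2.le⟩, h⟩)
  have k1 := (card_le_card hsub).trans (card_union_le _ _)
  have k2 := card_image_le (s := Bad) (f := (W - ·))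
  rw [Nat.card_Ioo] at k1
  have k3 : (W : ℝ) ≤ 2 * Bad.card + 1 := by
    exact_mod_cast (by omega : W ≤ 2 * Bad.card + 1)
  linarith

end Vale.Agent.P012
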