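import Vale.Agent.P012.Basic

open Finset

namespace Vale.Agent.P012

/-- Root of unity. -/
noncomputable def zz (d : ℕ) : ℂ := Complex.exp (2 * Real.pi * Complex.I / d)

/-- Number of congruent pairs. -/
def EE (d : ℕ) (X : Finset ℕ) : ℕ := ((X ×ˢ X).filter fun p => p.1 % d = p.2 % d).card

lemma zz_prim {d : ℕ} (hd : 0 < d) : IsPrimitiveRoot (zz d) d :=
  Complex.isPrimitiveRoot_exp d hd.ne'

lemma zz_ne (d : ℕ) : zz d ≠ 0 := Complex.exp_ne_zero _

lemma orth {d : ℕ} (hd : 0 < d) (n : ℤ) :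
    ∑ r ∈ range d, (zz d ^ n) ^ r = if (d : ℤ) ∣ n then (d : ℂ) else 0 := by
  split_ifs with h
  · rw [((zz_prim hd).zpow_eq_one_iff_dvd n).2 h]; simp
  · have h1 : zz d ^ n ≠ 1 := fun h' => h (((zz_prim hd).zpow_eq_one_iff_dvd n).1 h')
    rw [geom_sum_eq h1, ← zpow_natCast, ← zpow_mul, mul_comm, zpow_mul, zpow_natCast,
      (zz_prim hd).pow_eq_one]
    simp

lemma conj_zz {d : ℕ} (hd : 0 < d) : (starRingEnd ℂ) (zz d) = (zz d)⁻¹ :=
  (Complex.inv_eq_conj ((zz_prim hd).norm'_eq_one hd.ne')).symm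

lemma parseval {d h : ℕ} (hd : 0 < d) (hh : Nat.Coprime d h) (Y : Finset ℕ) :
    ∑ r ∈ range d, ‖∑ y ∈ Y, zz d ^ (r * h * y)‖ ^ 2 = d * EE d Y := by
  have key : ∑ r ∈ range d, ((‖∑ y ∈ Y, zz d ^ (r * h * y)‖ ^ 2 : ℝ) : ℂ) = d * EE d Y := by
    have e1 : ∀ r, ((‖∑ y ∈ Y, zz d ^ (r * h * y)‖ ^ 2 : ℝ) : ℂ)
        = ∑ p ∈ Y ×ˢ Y, (zz d ^ ((h : ℤ) * (p.1 - p.2))) ^ r := by
      intro r
      rw [← Complex.normSq_eq_norm_sq, ← Complex.mul_conj, map_sum, sum_mul_sum, sum_product]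
      refine sum_congr rfl fun y _ => sum_congr rfl fun y' _ => ?_
      rw [map_pow, conj_zz hd, inv_pow, ← zpow_natCast, ← zpow_natCast, ← zpow_natCast,
        ← zpow_mul, ← zpow_neg, ← zpow_add₀ (zz_ne d)]
      congr 1; push_cast; ring
    simp only [e1]
    rw [sum_comm]
    simp only [orth hd]
    rw [← sum_filter, sum_const, nsmul_eq_mul, mul_comm, EE]
    congr 3
    refine filter_congr fun p _ => ?_
    have hcop : IsCoprime (d : ℤ) (h : ℤ) := Nat.isCoprime_iff_coprime.2 hh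
    constructor
    · intro h1
      exact (Nat.modEq_iff_dvd.2 (hcop.dvd_of_dvd_mul_left h1)).symm
    · intro h1
      exact Dvd.dvd.mul_left (Nat.modEq_iff_dvd.1 h1.symm) _
  exact_mod_cast key

lemma bilin {d h : ℕ} (hd : 0 < d) (hh : Nat.Coprime d h) (X Y : Finset ℕ) :
    ‖∑ p ∈ X ×ˢ Y, zz d ^ (h * (p.1 * p.2))‖ ^ 2 ≤ EE d X * (d * EE d Y) := by
  set c : ℕ → ℕ := fun r => (X.filter fun x => x % d = r).card with hc
  have e1 : ∑ p ∈ X ×ˢ Y, zz d ^ (h * (p.1 * p.2))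
      = ∑ r ∈ range d, c r * ∑ y ∈ Y, zz d ^ (r * h * y) := by
    rw [sum_product, ← sum_fiberwise_of_maps_to (s := X) (t := range d) (g := fun x => x % d)
      (fun x _ => mem_range.2 (Nat.mod_lt _ hd))]
    refine sum_congr rfl fun r _ => ?_
    rw [sum_congr rfl (g := fun _ => ∑ y ∈ Y, zz d ^ (r * h * y)), sum_const, nsmul_eq_mul]
    intro x hx
    refine sum_congr rfl fun y _ => ?_
    rw [← (mem_filter.1 hx).2]
    conv_lhs => rw [← Nat.mod_add_div x d]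
    have : h * ((x % d + d * (x / d)) * y) = x % d * h * y + d * (x / d * h * y) := by ring
    rw [this, pow_add, pow_mul _ d, (zz_prim hd).pow_eq_one]; simp
  have e2 : ∑ r ∈ range d, (c r : ℝ) ^ 2 = EE d X := by
    rw [EE, card_eq_sum_card_fiberwise (t := range d) (f := fun p : ℕ × ℕ => p.1 % d)
      (fun x _ => mem_range.2 (Nat.mod_lt _ hd))]
    push_cast
    refine sum_congr rfl fun r _ => ?_
    rw [sq, ← Nat.cast_mul, hc, ← card_product]
    congr 2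
    ext p
    simp only [mem_product, mem_filter]
    constructor
    · rintro ⟨⟨a, b⟩, c, e⟩; exact ⟨⟨⟨a, c⟩, b.trans e.symm⟩, b⟩
    · rintro ⟨⟨⟨a, c⟩, b⟩, e⟩; exact ⟨⟨a, e⟩, c, b.symm.trans e⟩
  rw [e1, ← e2, ← parseval hd hh]
  refine le_trans ?_ (sum_mul_sq_le_sq_mul_sq _ _ _)
  refine pow_le_pow_left₀ (norm_nonneg _) ((norm_sum_le _ _).trans (le_of_eq ?_)) 2
  refine sum_congr rfl fun r _ => ?_
  rw [norm_mul, Complex.norm_natCast]

lemma zz_pow {A d : ℕ} (hA : 0 < A) (hd : d ∣ A) : zz A ^ (A / d) = zz d := by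
  obtain ⟨e, rfl⟩ := hd
  have hd0 : 0 < d := Nat.pos_of_mul_pos_right hA
  have he0 : 0 < e := Nat.pos_of_mul_pos_left hA
  rw [Nat.mul_div_cancel_left _ hd0, zz, zz, ← Complex.exp_nat_mul]
  congr 1
  have : (d : ℂ) ≠ 0 := by exact_mod_cast hd0.ne'
  have : (e : ℂ) ≠ 0 := by exact_mod_cast he0.ne'
  push_cast; field_simp

theorem fourier {A : ℕ} (hA : 0 < A) (X Y : Finset ℕ) (κ : ℕ)
    (H : ∑ d ∈ A.divisors.erase 1, ((EE d X : ℝ) * (d * EE d Y)) ^ κ * (d * EE d X)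
      < ((X.card * Y.card : ℝ) ^ 2) ^ κ * X.card ^ 2) :
    ∃ g : Fin (2 * κ) → ℕ × ℕ, (∀ i, (g i).1 ∈ X ∧ (g i).2 ∈ Y) ∧ ∃ x ∈ X, ∃ x' ∈ X,
      A ∣ ∑ i, (g i).1 * (g i).2 + (x + x') := by
  by_contra hc
  push Not at hc
  set S : ℕ → ℂ := fun h => ∑ p ∈ X ×ˢ Y, zz A ^ (h * (p.1 * p.2)) with hS
  set F : ℕ → ℂ := fun h => ∑ x ∈ X, zz A ^ (h * x) with hF
  have h0 : ∑ h ∈ range A, S h ^ (2 * κ) * F h ^ 2 = 0 := by
    have e : ∀ h, S h ^ (2 * κ) * F h ^ 2 = ∑ g ∈ Fintype.piFinset fun _ : Fin (2 * κ) => X ×ˢ Y,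
        ∑ x ∈ X, ∑ x' ∈ X,
          (zz A ^ ((∑ i, (g i).1 * (g i).2 + (x + x') : ℕ) : ℤ)) ^ h := by
      intro h
      rw [hS, hF, sum_pow', sq, sum_mul_sum, sum_mul]
      refine sum_congr rfl fun g _ => ?_
      rw [mul_sum]
      refine sum_congr rfl fun x _ => ?_
      rw [mul_sum]
      refine sum_congr rfl fun x' _ => ?_
      rw [prod_pow_eq_pow_sum, zpow_natCast, ← pow_mul, ← pow_add, ← pow_add, ← mul_sum]
      congr 1; ring
    simp only [e]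
    rw [sum_comm]
    refine sum_eq_zero fun g hg => ?_
    rw [sum_comm]
    refine sum_eq_zero fun x hx => ?_
    rw [sum_comm]
    refine sum_eq_zero fun x' hx' => ?_
    rw [orth hA, if_neg]
    rw [Int.natCast_dvd_natCast]
    exact hc g (fun i => mem_product.1 (Fintype.mem_piFinset.1 hg i)) x hx x' hx'
  rw [← add_sum_erase _ _ (mem_range.2 hA), add_eq_zero_iff_eq_neg] at h0
  have h1 := congrArg norm h0
  have h2 : ‖S 0 ^ (2 * κ) * F 0 ^ 2‖ = ((X.card * Y.card : ℝ) ^ 2) ^ κ * X.card ^ 2 := by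
    simp [hS, hF, pow_mul]
  rw [h2, norm_neg] at h1
  refine absurd (h1.le.trans ((norm_sum_le _ _).trans ?_)) (not_le.2 H)
  rw [← sum_fiberwise_of_maps_to (t := A.divisors.erase 1) (g := fun h => A / Nat.gcd A h)]
  swap
  · intro h hh
    rw [mem_erase, mem_range] at hh
    refine mem_erase.2 ⟨fun h1 => ?_, Nat.mem_divisors.2
      ⟨Nat.div_dvd_of_dvd (Nat.gcd_dvd_left _ _), hA.ne'⟩⟩
    have h3 := Nat.div_mul_cancel (Nat.gcd_dvd_left A h)
    rw [h1, one_mul] at h3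
    have := Nat.le_of_dvd (Nat.pos_of_ne_zero hh.1) (Nat.gcd_dvd_right A h)
    omega
  refine sum_le_sum fun d hd => ?_
  have hdA := Nat.dvd_of_mem_divisors (mem_erase.1 hd).2
  have hd0 : 0 < d := Nat.pos_of_dvd_of_pos hdA hA
  have hq : 0 < A / d := Nat.div_pos (Nat.le_of_dvd hA hdA) hd0
  refine (sum_le_sum_of_subset_of_nonneg (t := ((range d).filter fun h => Nat.Coprime d h).image
    fun h => A / d * h) ?_ fun _ _ _ => norm_nonneg _).trans ?_
  · intro h hh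
    simp only [mem_filter, mem_erase, mem_range] at hh
    obtain ⟨⟨h3, h4⟩, h5⟩ := hh
    have g0 : 0 < Nat.gcd A h := Nat.gcd_pos_of_pos_left _ hA
    have h6 : A / d = Nat.gcd A h := by
      rw [← h5]; exact Nat.div_div_self (Nat.gcd_dvd_left _ _) hA.ne'
    refine mem_image.2 ⟨h / Nat.gcd A h, mem_filter.2 ⟨mem_range.2 ?_, ?_⟩, ?_⟩
    · rw [← h5]
      exact Nat.div_lt_div_of_lt_of_dvd (Nat.gcd_dvd_left _ _) h4
    · rw [← h5]; exact Nat.coprime_div_gcd_div_gcd g0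
    · rw [h6]; exact Nat.mul_div_cancel' (Nat.gcd_dvd_right _ _)
  rw [sum_image fun x _ y _ hxy => Nat.eq_of_mul_eq_mul_left hq hxy, ← parseval hd0
    (Nat.coprime_one_right d) X, mul_sum]
  refine (sum_le_sum fun h hh => ?_).trans (sum_le_sum_of_subset_of_nonneg (filter_subset _ _)
    fun _ _ _ => by positivity)
  rw [norm_mul, norm_pow, norm_pow, pow_mul]
  refine mul_le_mul (pow_le_pow_left₀ (by positivity) ?_ κ) (le_of_eq ?_) (by positivity)
    (by positivity)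
  · refine le_trans (le_of_eq ?_) (bilin hd0 (mem_filter.1 hh).2 X Y)
    simp only [hS, mul_assoc, pow_mul _ (A / d), zz_pow hA hdA]
  · simp only [hF, mul_assoc, pow_mul _ (A / d), zz_pow hA hdA, one_mul]

end Vale.Agent.P012
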