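import Vale.Agent.P012.Count

open Finset

namespace Vale.Agent.P012

lemma primes_exist {e : ℕ} (h : 2 * e + 1 < 2 ^ e) :
    ∃ (Q : ℕ) (Z : Finset ℕ), 2 ^ 2 ^ e ≤ Q ∧ Q ≤ 2 ^ (2 * e * 2 ^ e) ∧ Z.card = 2 ^ 2 ^ e ∧
      ∀ x ∈ Z, x ∣ Q := by
  set k := 2 ^ e with hk
  have hn : k ^ 2 = 2 ^ (2 * e) := by rw [hk, ← pow_mul, mul_comm]
  have h1 : k ≤ (Nat.primesLE (k ^ 2)).card := by
    by_contra hc
    push Not at hc
    have h2 := Chebyshev.two_pow_le_mul_lcmUpto (k ^ 2)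
    have h3 : Nat.lcmUpto (k ^ 2) ≤ (k ^ 2) ^ (Nat.primesLE (k ^ 2)).card := by
      rw [Nat.lcmUpto_eq_prod_pow_log]
      exact prod_le_pow_card _ _ _ fun p _ => Nat.pow_log_le_self p (by positivity)
    have h4 : (k ^ 2 + 1) * (k ^ 2) ^ (Nat.primesLE (k ^ 2)).card ≤ 2 * (k ^ 2) ^ k := by
      have hk1 : 1 ≤ k ^ 2 := Nat.one_le_pow _ _ (by omega)
      calc _ ≤ (2 * k ^ 2) * (k ^ 2) ^ (Nat.primesLE (k ^ 2)).card :=
            Nat.mul_le_mul_right _ (by omega)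
        _ = 2 * (k ^ 2) ^ ((Nat.primesLE (k ^ 2)).card + 1) := by ring
        _ ≤ _ := Nat.mul_le_mul_left _ (Nat.pow_le_pow_right hk1 hc)
    have h5 := h2.trans ((Nat.mul_le_mul_left _ h3).trans h4)
    conv_rhs at h5 => rw [hn, ← pow_mul, ← pow_succ']
    rw [Nat.pow_le_pow_iff_right (by norm_num)] at h5
    nlinarith
  obtain ⟨P, hP, hPc⟩ := exists_subset_card_eq h1
  have hpr : ∀ p ∈ P, p.Prime := fun p hp => Nat.prime_of_mem_primesLE (hP hp)
  have hQ0 : ∏ p ∈ P, p ≠ 0 := prod_ne_zero_iff.2 fun p hp => (hpr p hp).ne_zero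
  have h2 := two_pow_omega_le hQ0
  rw [Nat.primeFactors_prod hpr, hPc] at h2
  obtain ⟨Z, hZ, hZc⟩ := exists_subset_card_eq h2
  refine ⟨∏ p ∈ P, p, Z, h2.trans (Nat.card_divisors_le_self _), ?_, hZc,
    fun x hx => Nat.dvd_of_mem_divisors (hZ hx)⟩
  refine (prod_le_pow_card _ _ (k ^ 2) fun p hp => Nat.le_of_mem_primesLE (hP hp)).trans ?_
  rw [hPc, hn, ← pow_mul]

lemma exists_modulus {Z : Finset ℕ} {z : ℕ} (hZ : ∀ x ∈ Z, x ≤ 2 ^ z) (h3 : 3 ≤ z * Z.card ^ 2) :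
    ∃ l, 0 < l ∧ l ≤ 2 * (z * Z.card ^ 2) ∧ ∀ x ∈ Z, ∀ y ∈ Z, x % l = y % l → x = y := by
  set u := z * Z.card ^ 2 with hu
  set P := ∏ p ∈ Z.offDiag, (max p.1 p.2 - min p.1 p.2) with hP
  have hP0 : 0 < P := prod_pos fun p hp => by have := (mem_offDiag.1 hp).2.2; omega
  have hP1 : P ≤ 2 ^ u := by
    refine (prod_le_pow_card _ _ (2 ^ z) fun p hp => ?_).trans ?_
    · obtain ⟨a1, a2, -⟩ := mem_offDiag.1 hp
      have := hZ _ a1; have := hZ _ a2; omega
    · rw [← pow_mul]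
      refine Nat.pow_le_pow_right (by norm_num) (Nat.mul_le_mul_left _ ?_)
      rw [offDiag_card, sq]; exact Nat.sub_le _ _
  obtain ⟨l, hl, hlP⟩ : ∃ l ∈ Icc 1 (2 * u), ¬ l ∣ P := by
    by_contra hc
    push Not at hc
    have h1 : Nat.lcmUpto (2 * u) ∣ P := Finset.lcm_dvd hc
    have h2 := (Chebyshev.two_pow_le_mul_lcmUpto (2 * u)).trans
      (Nat.mul_le_mul_left _ ((Nat.le_of_dvd hP0 h1).trans hP1))
    rw [two_mul u, pow_add] at h2
    have h4 := Nat.le_of_mul_le_mul_right h2 (by positivity)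
    have h5 : ∀ v, 3 ≤ v → v + v + 1 < 2 ^ v := by
      intro v hv
      induction v, hv using Nat.le_induction with
      | base => norm_num
      | succ v _ ih => rw [pow_succ]; omega
    exact absurd h4 (not_le.2 (h5 u h3))
  refine ⟨l, (mem_Icc.1 hl).1, (mem_Icc.1 hl).2, fun x hx y hy hxy => ?_⟩
  by_contra hne
  refine hlP (Dvd.dvd.trans ?_ (dvd_prod_of_mem _ (mem_offDiag.2 ⟨hx, hy, hne⟩ :
    (x, y) ∈ Z.offDiag)))
  rcases le_total x y with h | h
  · simp only [max_eq_right h, min_eq_left h]; exact (Nat.modEq_iff_dvd' h).1 hxy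
  · simp only [max_eq_left h, min_eq_right h]; exact (Nat.modEq_iff_dvd' h).1 hxy.symm

lemma sq_le_two_pow {μ : ℕ} (h : 100 ≤ μ) : 40000 * μ ^ 2 ≤ 2 ^ μ := by
  induction μ, h using Nat.le_induction with
  | base => norm_num
  | succ v hv ih => rw [pow_succ 2]; nlinarith

lemma good_rep {X Y : Finset ℕ} {k κ A D Q s : ℕ} (h : Good X Y k κ A) (hD : 0 < D) (hQ : 0 < Q)
    (hX : ∀ x ∈ X, SumDiv D s x) (hY : ∀ y ∈ Y, y ∣ Q) (hX0 : ∀ x ∈ X, 0 < x) :
    Rep (2 * κ * s + (s + s)) (A / (D * Q * primorial k ^ 9 : ℕ)) := by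
  obtain ⟨R, c, hc, hR, g, hg, x, hx, x', hx', hdvd⟩ := h
  have h1 := SumDiv.sum (univ : Finset (Fin (2 * κ))) (D := D * Q) (n := s)
    (f := fun i => (g i).1 * (g i).2) fun i _ => (hX _ (hg i).1).mul (hY _ (hg i).2)
  have h2 := h1.add (((hX x hx).add (hX x' hx')).dvd (Dvd.intro Q rfl))
  rw [card_univ, Fintype.card_fin] at h2
  have h3 := h2.rep (by positivity) hc (by have := hX0 x hx; omega) hdvd
  convert h3 using 1
  have := primorial_pos k
  rw [div_eq_div_iff (by positivity) (by positivity)]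
  have hR' : (A : ℚ) * c = (primorial k : ℚ) ^ 9 * R := by exact_mod_cast hR
  push_cast
  linear_combination (D * Q : ℚ) * hR'

lemma theta_lt {μ : ℕ} (h : 100 ≤ μ) :
    (2 : ℝ) ^ (82 * μ) * ((2 * ((2 : ℝ) ^ μ) ^ 82) ^ (170 + 1) *
      (2 * ((2 : ℝ) ^ μ) ^ 2 / ((2 ^ (85 * μ) : ℕ) : ℝ)) ^ 170) < 1 := by
  have h1 : (2 : ℝ) ^ 341 < ((2 : ℝ) ^ μ) ^ 6 := by
    rw [← pow_mul]; exact pow_lt_pow_right₀ (by norm_num) (by omega)
  push_cast
  rw [mul_comm 82, mul_comm 85, pow_mul, pow_mul]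
  have h0 : (0 : ℝ) < 2 ^ μ := by positivity
  generalize (2 : ℝ) ^ μ = m at *
  have e : m ^ 82 * ((2 * m ^ 82) ^ (170 + 1) * (2 * m ^ 2 / m ^ 85) ^ 170) = 2 ^ 341 / m ^ 6 := by
    field_simp; ring
  rw [e, div_lt_one (by positivity)]
  exact h1

lemma nums {μ m k : ℕ} (hμ : 100 ≤ μ) (f1 : 40000 * μ ^ 2 ≤ m) (f2 : m ≤ k) :
    40000 * μ ≤ m ∧ k * 2 < m * k ∧ k + 600 * μ * k ≤ m * k ∧ 3 ≤ 2 * (80 * μ) * k ∧
    2 * (2 * (80 * μ) * k) ≤ k ^ 2 ∧
    2 * (80 * μ) * k + (160 * μ + 2 * k) * (200 * μ) ≤ 561 * μ * k ∧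
    k + 561 * μ * k ≤ 600 * μ * k ∧ k + (561 * μ * k + 2 * μ * m + 18 * k) ≤ 600 * μ * k ∧
    85 * μ * (82 * μ) ≤ m ∧ 600 * μ * k + m * k * 2 + m * k * 2 ≤ 6 * m * k := by
  have h1 : 40000 * μ ≤ m := by nlinarith
  have h2 : 40000 * μ * k ≤ m * k := Nat.mul_le_mul_right _ h1
  have h3 : 100 * k ≤ μ * k := Nat.mul_le_mul_right _ hμ
  have h4 : 40000 * μ * k ≤ k * k := Nat.mul_le_mul_right _ (h1.trans f2)
  have h5 : μ * (40000 * μ) ≤ μ * k := Nat.mul_le_mul_left _ (h1.trans f2)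
  have h6 : μ * m ≤ μ * k := Nat.mul_le_mul_left _ f2
  refine ⟨h1, ?_, ?_, ?_, ?_, ?_, ?_, ?_, ?_, ?_⟩ <;> nlinarith

lemma numsR {μ m k : ℝ} (hμ : 100 ≤ μ) (f1 : 40000 * μ ≤ m) (f2 : 1 ≤ k) :
    1 ≤ m ^ 2 * k ∧ 1 ≤ m ^ 2 ∧ 6 * m * k / (m ^ 2 * k) ≤ 1 / 50 ∧ 2 * μ * m / m ^ 2 ≤ 1 / 50 ∧
    50 * (1 + 600 * μ * k) ≤ m ^ 2 * k := by
  have hm : 4000000 ≤ m := by linarith
  have h1 : m ≤ m ^ 2 := by nlinarith
  have h2 : 40000 * μ * k ≤ m * k := mul_le_mul_of_nonneg_right f1 (by positivity)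
  have h3 : m * k ≤ m ^ 2 * k := mul_le_mul_of_nonneg_right h1 (by positivity)
  have h4 : 100 * 1 ≤ μ * k := mul_le_mul hμ f2 (by norm_num) (by positivity)
  refine ⟨by nlinarith, by nlinarith, ?_, ?_, by nlinarith⟩
  · rw [div_le_iff₀ (by positivity)]
    have : (0 : ℝ) ≤ m * k := by positivity
    nlinarith
  · rw [div_le_iff₀ (by positivity)]
    nlinarith

lemma main_rep {μ a b : ℕ} (hμ : 100 ≤ μ) (hab : a < b) (hb : b ≤ 2 ^ 2 ^ (80 * μ)) :
    Rep (500000 * μ) (a / b) := by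
  have f1 := sq_le_two_pow hμ
  have f2 : 2 ^ μ ≤ 2 ^ (80 * μ) := Nat.pow_le_pow_right (by norm_num) (by omega)
  have f3 : 2 ^ (81 * μ) = 2 ^ μ * 2 ^ (80 * μ) := by rw [← pow_add]; congr 1; ring
  have f4 : (2 ^ (80 * μ)) ^ 2 = 2 ^ (160 * μ) := by rw [← pow_mul]; congr 1; ring
  obtain ⟨Q1, Z, q1, q2, q3, q4⟩ := primes_exist (e := 80 * μ) (by nlinarith)
  obtain ⟨Q2, Y, y1, y2, y3, y4⟩ := primes_exist (e := μ) (by nlinarith)
  have hθ := theta_lt hμ
  have hp := prime_sum (e := 80 * μ) (by omega) (5 * μ)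
  have f5 : ((2 : ℝ) ^ μ) ^ 82 = (2 ^ μ : ℕ) ^ 2 * (2 ^ (80 * μ) : ℕ) := by
    push_cast; rw [mul_comm 80, pow_mul]; ring
  have f6 : (2 : ℝ) ^ (82 * μ) = (2 ^ μ : ℕ) ^ 2 * (2 ^ (80 * μ) : ℕ) := by
    rw [mul_comm, pow_mul, f5]
  have f7 : ((2 : ℝ) ^ μ) ^ 2 = (2 ^ μ : ℕ) ^ 2 := by push_cast; rfl
  rw [f5, f7] at hθ
  generalize 2 ^ (80 * μ) = k at *
  generalize hm : 2 ^ μ = m at f1 f2 f3 y1 y2 y3 hθ f5 f6 f7
  obtain ⟨hμm, e1, e2, e3, e4, e5, e6, e7, e8, e9⟩ := nums hμ f1 f2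
  have pw : ∀ {x y : ℕ}, x ≤ y → 2 ^ x ≤ 2 ^ y := fun h => Nat.pow_le_pow_right (by norm_num) h
  have hQ1 : 0 < Q1 := lt_of_lt_of_le (by positivity) q1
  have hQ2 : 0 < Q2 := lt_of_lt_of_le (by positivity) y1
  obtain ⟨a', g, n, r, p1, p2, p3, p4⟩ := prepare (Θ := 2 ^ (600 * μ * k)) (J := 81 * μ) hab
    (by
      refine lt_of_le_of_lt (Nat.pow_le_pow_left hb 2) ?_
      rw [← pow_mul, f3]
      exact Nat.pow_lt_pow_right (by norm_num) e1)
    (by
      refine (Nat.mul_le_mul_right _ hb).trans ?_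
      rw [← pow_add, f3]
      exact pw e2)
  rcases Nat.eq_zero_or_pos a' with rfl | ha'
  · rw [p3]; simpa using p2.mono (by omega)
  obtain ⟨g1, n1, g2, n2⟩ := p4.resolve_left (by omega)
  rw [f3, ← pow_mul] at g2 n2
  have hg : 0 < g := lt_of_lt_of_le (by positivity) g1
  have hn : 0 < n := lt_of_lt_of_le (by positivity) n1
  obtain ⟨l, l0, l1, l2⟩ := exists_modulus (Z := Z) (z := 2 * (80 * μ) * k)
    (fun x hx => (Nat.le_of_dvd hQ1 (q4 x hx)).trans q2) (by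
      exact e3.trans (Nat.le_mul_of_pos_right _ (by rw [q3]; positivity)))
  have l3 : l ≤ 2 ^ (160 * μ + 2 * k) := by
    refine l1.trans ?_
    rw [q3, pow_add, ← f4, ← pow_mul, mul_comm k 2, ← mul_assoc]
    exact Nat.mul_le_mul_right _ e4
  obtain ⟨X1, x1, x2, x3⟩ := exists_tower l0 hQ1 q4 l2 (200 * μ)
  set D := Q1 * l ^ (200 * μ) with hD
  have hD0 : 0 < D := by positivity
  have hD1 : D ≤ 2 ^ (561 * μ * k) := by
    refine (Nat.mul_le_mul q2 (Nat.pow_le_pow_left l3 _)).trans ?_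
    rw [← pow_mul, ← pow_add]
    exact pw e5
  have hD2 : 600 * μ * D < 2 ^ (600 * μ * k) := by
    have : 600 * μ < 2 ^ k := lt_of_le_of_lt (by omega) (Nat.lt_two_pow_self (n := k))
    refine lt_of_lt_of_le (Nat.mul_lt_mul_of_lt_of_le this hD1 (by positivity)) ?_
    rw [← pow_add]
    exact pw e6
  have x4 : ∀ x ∈ X1, x < 2 ^ (600 * μ * k) := fun x hx =>
    lt_of_le_of_lt (((x3 x hx).le hD0).trans (Nat.mul_le_mul_right _ (by omega))) hD2
  have inj : ∀ G, 2 ^ (600 * μ * k) ≤ G → ∀ x ∈ X1, ∀ y ∈ X1, x % G = y % G → x = y := by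
    intro G hG x hx y hy h
    rwa [Nat.mod_eq_of_lt ((x4 x hx).trans_le hG), Nat.mod_eq_of_lt ((x4 y hy).trans_le hG)] at h
  set X := comb X1 (comb X1 X1 n) g with hX
  have c1 : X.card = 2 ^ (600 * μ * k) := by
    rw [hX, card_comb hg (inj g g1), card_comb hn (inj n n1), x1, q3, ← pow_mul, ← pow_add,
      ← pow_add]
    congr 1; ring
  have c2 : ∀ x ∈ X, SumDiv (D * n * g) (600 * μ) x := by
    have := sumDiv_comb (g := g) (Dvd.dvd.mul_right (Dvd.intro n rfl) g) x3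
      (sumDiv_comb (g := n) (Dvd.intro n rfl) x3 x3)
    rwa [show 200 * μ + (200 * μ + 200 * μ) = 600 * μ by ring] at this
  have c3 : ∀ x ∈ X, 0 < x := pos_comb (x2 (by omega))
  set W := a' * (D * Q2 * primorial k ^ 9) with hW
  have hP := primorial_pos k
  have w1 : W ≤ 2 ^ (600 * μ * k) := by
    have : primorial k ^ 9 ≤ 2 ^ (18 * k) := by
      refine (Nat.pow_le_pow_left (primorial_le_four_pow k) 9).trans (le_of_eq ?_)
      rw [show 4 = 2 ^ 2 by norm_num, ← pow_mul, ← pow_mul]; congr 1; ring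
    refine (Nat.mul_le_mul (p1.trans hb) (Nat.mul_le_mul (Nat.mul_le_mul hD1 y2) this)).trans ?_
    rw [← pow_add, ← pow_add, ← pow_add]
    exact pw e7
  have w2 : 10 ≤ W := by
    have : Q2 ≤ W := Nat.le_of_dvd (by positivity) ⟨a' * D * primorial k ^ 9, by rw [hW]; ring⟩
    have : m < 2 ^ m := Nat.lt_two_pow_self
    omega
  have hm' : (40000 : ℝ) * μ ≤ m := by exact_mod_cast hμm
  have hμ' : (100 : ℝ) ≤ μ := by exact_mod_cast hμ
  have hk' : (1 : ℝ) ≤ k := by exact_mod_cast (by omega : 1 ≤ k)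
  obtain ⟨u1, u2, u3, u4, u5⟩ := numsR hμ' hm' hk'
  obtain ⟨A, A', hA, gA, gA'⟩ := good_exists (W := W) (k := k) (w := 2 ^ (85 * μ)) (κ := 170)
    (o := 82 * μ) (zX := 6 * m * k) (zY := 2 * μ * m) (X := X) (Y := Y) w2 (by omega)
    (by positivity) (c1 ▸ w1) (by rw [y3, ← pow_mul]; exact pw e8)
    u1 u2 hθ
    (fun x hx => by
      refine ((c2 x hx).le (by positivity)).trans ?_
      rw [← mul_assoc, ← mul_assoc]
      refine (Nat.mul_le_mul (Nat.mul_le_mul hD2.le n2) g2).trans ?_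
      rw [← pow_add, ← pow_add]
      exact pw e9)
    (fun y hy => (Nat.le_of_dvd hQ2 (y4 y hy)).trans y2)
    (by push_cast; exact u3) (by push_cast; exact u4)
    (by
      rw [show 80 * μ + 5 * μ = 85 * μ by ring] at hp
      refine hp.trans (le_of_eq ?_)
      push_cast; field_simp; norm_num)
    (by
      have h1 : Real.log W ≤ 600 * μ * k := by
        have h2 : (W : ℝ) ≤ 2 ^ (600 * μ * k) := by exact_mod_cast w1
        refine (Real.log_le_log (by exact_mod_cast (by omega : 0 < W)) h2).trans ?_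
        rw [Real.log_pow]
        have := Real.log_two_lt_d9
        push_cast
        exact mul_le_of_le_one_right (by positivity) (by linarith)
      rw [f6]
      linarith)
  have r1 := good_rep gA (by positivity) hQ2 c2 y4 c3
  have r2 := good_rep gA' (by positivity) hQ2 c2 y4 c3
  have := (p2.add (r1.add r2)).mono (l := 500000 * μ) (by omega)
  convert this using 1
  rw [p3, ← add_div, ← Nat.cast_add, hA, hW]
  push_cast
  field_simp

lemma den_bound (K : ℕ) : ∀ k ≤ K, ∀ (M : Multiset ℕ) (p q : ℕ), M.card ≤ k → (∀ n ∈ M, 0 < n) →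
    0 < q → (M.map fun n : ℕ => (1 / n : ℚ)).sum = p / q → ∀ n ∈ M, n ≤ (K * q) ^ 2 ^ k := by
  intro k
  induction k with
  | zero =>
    intro _ M p q h1 _ _ _ n hn
    rw [Nat.le_zero, Multiset.card_eq_zero] at h1
    simp [h1] at hn
  | succ k ih =>
    intro hk M p q h1 h2 hq h3 x hx
    obtain ⟨n, hn, hmin⟩ := M.toFinset.exists_min_image id ⟨x, by simpa using hx⟩
    simp only [Multiset.mem_toFinset, id] at hn hmin
    have hn0 : (0 : ℚ) < n := by exact_mod_cast h2 n hn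
    have hq0 : (0 : ℚ) < q := by exact_mod_cast hq
    obtain ⟨M', rfl⟩ := Multiset.exists_cons_of_mem hn
    have hpos : 0 ≤ (M'.map fun n : ℕ => (1 / n : ℚ)).sum :=
      Multiset.sum_nonneg fun x hx => by
        obtain ⟨y, -, rfl⟩ := Multiset.mem_map.1 hx; positivity
    have hle : (p / q : ℚ) ≤ (k + 1 : ℚ) / n := by
      rw [← h3]
      refine (Multiset.sum_le_card_nsmul _ (1 / n : ℚ) fun x hx => ?_).trans ?_
      · obtain ⟨y, hy, rfl⟩ := Multiset.mem_map.1 hx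
        exact one_div_le_one_div_of_le hn0 (by exact_mod_cast hmin y hy)
      · rw [Multiset.card_map, nsmul_eq_mul, mul_one_div]
        exact div_le_div_of_nonneg_right (by exact_mod_cast h1) hn0.le
    rw [Multiset.map_cons, Multiset.sum_cons] at h3
    have h4 : q ≤ p * n := by
      have : (1 / n : ℚ) ≤ p / q := by linarith
      rw [div_le_div_iff₀ hn0 hq0, one_mul] at this
      exact_mod_cast this
    have h5 : n ≤ K * q := by
      rw [div_le_div_iff₀ hq0 hn0] at hle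
      have h6 : p * n ≤ (k + 1) * q := by exact_mod_cast hle
      have hp : 0 < p := Nat.pos_of_mul_pos_right (hq.trans_le h4)
      exact (Nat.le_mul_of_pos_left _ hp).trans (h6.trans (Nat.mul_le_mul_right _ hk))
    rcases Multiset.mem_cons.1 hx with rfl | hx'
    · exact h5.trans (Nat.le_self_pow (by positivity) _)
    · refine (ih (by omega) M' (p * n - q) (q * n) (by simpa using h1)
        (fun y hy => h2 y (Multiset.mem_cons_of_mem hy)) (Nat.mul_pos hq (h2 n hn)) ?_ x hx').trans ?_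
      · push_cast [Nat.cast_sub h4]
        rw [eq_sub_of_add_eq' h3]; field_simp
      · rw [pow_succ', pow_mul]
        refine Nat.pow_le_pow_left ?_ _
        rw [sq, ← mul_assoc]; exact Nat.mul_le_mul_left _ h5

lemma lower {b : ℕ} (hb : 3 ≤ b) {s : Finset ℕ} (hs : 1 ≤ s.card) (h1 : ∀ n ∈ s, 2 ≤ n)
    (h2 : ∑ n ∈ s, (1 / n : ℚ) = (b - 1 : ℕ) / b) : 1 / 4 * Real.log (Real.log b) ≤ s.card := by
  have hb0 : (0 : ℚ) < b := by exact_mod_cast (by omega : 0 < b)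
  have h3 := den_bound (s.card + 1) _ le_rfl (b ::ₘ s.val) 1 1 (by simp) (fun n hn => by
    rcases Multiset.mem_cons.1 hn with rfl | h
    · omega
    · have := h1 n h; omega) one_pos (by
      rw [Multiset.map_cons, Multiset.sum_cons, ← Finset.sum_eq_multiset_sum, h2,
        Nat.cast_sub (by omega)]
      field_simp; simp) b (Multiset.mem_cons_self _ _)
  set K := s.card
  have h4 : b ≤ 2 ^ 2 ^ (2 * K + 2) := by
    refine h3.trans ?_
    rw [mul_one]
    refine (Nat.pow_le_pow_left (Nat.lt_two_pow_self (n := K + 1)).le _).trans ?_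
    rw [← pow_mul]
    refine Nat.pow_le_pow_right (by norm_num) ?_
    rw [show 2 * K + 2 = (K + 1) + (K + 1) by ring, pow_add 2 (K + 1)]
    exact Nat.mul_le_mul_right _ (Nat.lt_two_pow_self).le
  have l2 := Real.log_two_lt_d9
  have hb1 : (1 : ℝ) < b := by exact_mod_cast (by omega : 1 < b)
  have h5 : Real.log b ≤ 2 ^ (2 * K + 2) := by
    have : (b : ℝ) ≤ 2 ^ 2 ^ (2 * K + 2) := by exact_mod_cast h4
    refine (Real.log_le_log (by linarith) this).trans ?_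
    rw [Real.log_pow]; push_cast
    exact mul_le_of_le_one_right (by positivity) (by linarith)
  have h6 := Real.log_le_log (Real.log_pos hb1) h5
  rw [Real.log_pow] at h6
  have h7 : ((2 * K + 2 : ℕ) : ℝ) * Real.log 2 ≤ (2 * K + 2 : ℕ) :=
    mul_le_of_le_one_right (by positivity) (by linarith)
  have h8 : (1 : ℝ) ≤ K := by exact_mod_cast hs
  push_cast at h6 h7
  linarith

lemma natlog_le {x : ℕ} (hx : 0 < x) : (Nat.log 2 x : ℝ) ≤ 2 * Real.log x := by
  have h1 : (2 : ℝ) ^ Nat.log 2 x ≤ x := by exact_mod_cast Nat.pow_log_le_self 2 hx.ne'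
  have h2 := Real.log_le_log (by positivity) h1
  rw [Real.log_pow] at h2
  have := Real.log_two_gt_d9
  nlinarith [Nat.cast_nonneg (α := ℝ) (Nat.log 2 x)]

lemma upper {a b : ℕ} (hb : 16 ≤ b) (ha : 1 ≤ a) (hab : a < b) :
    ∃ s : Finset ℕ, 1 ≤ s.card ∧ (s.card : ℝ) ≤ 52000000 * Real.log (Real.log b) ∧
      (∀ n ∈ s, 2 ≤ n) ∧ ∑ n ∈ s, (1 / n : ℚ) = a / b := by
  have hb0 : (0 : ℚ) < b := by exact_mod_cast (by omega : 0 < b)
  set L := Nat.log 2 b with hL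
  have hL0 : 0 < L := Nat.log_pos (by norm_num) (by omega)
  have h1 := main_rep (μ := Nat.log 2 L + 100) (by omega) hab (by
    refine (Nat.lt_pow_succ_log_self (b := 2) (by norm_num) b).le.trans
      (Nat.pow_le_pow_right (by norm_num) ?_)
    exact (Nat.lt_pow_succ_log_self (b := 2) (by norm_num) L).trans_le
      (Nat.pow_le_pow_right (by norm_num) (by omega)))
  obtain ⟨s, s1, s2, s3⟩ := h1.distinct (by rw [div_lt_one hb0]; exact_mod_cast hab)
  refine ⟨s, ?_, ?_, s2, s3⟩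
  · rcases s.eq_empty_or_nonempty with rfl | h
    · have : (0 : ℚ) < a / b := div_pos (by exact_mod_cast ha) hb0
      simp only [sum_empty] at s3
      linarith
    · exact h.card_pos
  have hb' : (16 : ℝ) ≤ b := by exact_mod_cast hb
  have l2 := Real.log_two_lt_d9
  have l2' := Real.log_two_gt_d9
  have h2 : Real.exp 1 ≤ Real.log b := by
    have := Real.log_le_log (by norm_num) hb'
    rw [show (16 : ℝ) = 2 ^ 4 by norm_num, Real.log_pow] at this
    have := Real.exp_one_lt_d9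
    push_cast at *
    linarith
  have h3 : 1 ≤ Real.log (Real.log b) := by
    rw [Real.le_log_iff_exp_le (lt_of_lt_of_le (Real.exp_pos 1) h2)]; exact h2
  have h4 := natlog_le hL0
  have h5 := Real.log_le_log (by exact_mod_cast hL0) (natlog_le (x := b) (by omega))
  rw [Real.log_mul (by norm_num) (lt_of_lt_of_le (Real.exp_pos 1) h2).ne'] at h5
  have h6 : (s.card : ℝ) ≤ 500000 * (Nat.log 2 L + 100) := by exact_mod_cast s1
  linarith

end Vale.Agent.P012
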